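import Mathlib

namespace Vale.Agent.Lib.P147

open MeasureTheory ProbabilityTheory Filter

/-- The sites of the lattice `ℤ^d`. -/
abbrev Site (d : ℕ) : Type := Fin d → ℤ

/-- Index set of the `2d` unit steps: `(i, true)` stands for `+e_i`, `(i, false)` for `-e_i`. -/
abbrev Step (d : ℕ) : Type := Fin d × Bool

/-- The unit step `±e_i` as a lattice vector. -/
def stepVec {d : ℕ} (e : Step d) : Site d := Pi.single e.1 (if e.2 then 1 else -1)

/-- Euclidean inner product of a lattice site with a real vector. -/
def dot {d : ℕ} (x : Site d) (l : Fin d → ℝ) : ℝ := ∑ i, (x i : ℝ) * l i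

/-- Transition vectors: probability vectors on the `2d` unit steps. -/
abbrev Simplex (d : ℕ) : Type := stdSimplex ℝ (Step d)

/-- Environments: a transition vector at each site. -/
abbrev Env (d : ℕ) : Type := Site d → Simplex d

/-- The one-step law of the walk from the site `x` in the environment `ω`. -/
noncomputable def stepLaw {d : ℕ} (ω : Env d) (x : Site d) : Measure (Site d) :=
  ∑ e : Step d, ENNReal.ofReal (ω x e) • Measure.dirac (x + stepVec e)

/-- The transition kernels of the walk in the environment `ω`: the law of the position at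
time `n + 1` given the history up to time `n` is `stepLaw ω` at the position at time `n`. -/
noncomputable def walkKernel {d : ℕ} (ω : Env d) (n : ℕ) :
    Kernel ((i : Finset.Iic n) → Site d) (Site d) :=
  Kernel.ofFunOfCountable (fun h => stepLaw ω (h ⟨n, Finset.mem_Iic.2 le_rfl⟩))

instance isMarkovKernel_walkKernel {d : ℕ} (ω : Env d) (n : ℕ) :
    IsMarkovKernel (walkKernel ω n) := by
  refine ⟨fun h => ⟨?_⟩⟩
  change stepLaw ω (h ⟨n, Finset.mem_Iic.2 le_rfl⟩) Set.univ = 1
  unfold stepLaw
  rw [Measure.coe_finsetSum, Finset.sum_apply]
  simp only [Measure.smul_apply, measure_univ, smul_eq_mul, mul_one]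
  rw [← ENNReal.ofReal_sum_of_nonneg (fun e _ => stdSimplex.zero_le _ e),
    stdSimplex.sum_eq_one]
  simp

/-- The quenched law of the walk started at `x` in the environment `ω`, a probability measure
on the space of paths. -/
noncomputable def quenched {d : ℕ} (ω : Env d) (x : Site d) : Measure (ℕ → Site d) :=
  Kernel.traj (X := fun _ => Site d) (walkKernel ω) 0 (fun _ => x)

/-- The iid environment law with one-site marginal `μ`. -/
noncomputable def envLaw {d : ℕ} (μ : Measure (Simplex d)) [IsProbabilityMeasure μ] :
    Measure (Env d) :=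
  Measure.infinitePi (fun _ : Site d => μ)

/-- The annealed probability of a set of paths for the walk started at `x`. -/
noncomputable def annealed {d : ℕ} (μ : Measure (Simplex d)) [IsProbabilityMeasure μ]
    (x : Site d) (A : Set (ℕ → Site d)) : ENNReal :=
  ∫⁻ ω, quenched ω x A ∂(envLaw μ)

/-- The event of escape in direction `l`: `X_n · l → +∞`. -/
def escape {d : ℕ} (l : Fin d → ℝ) : Set (ℕ → Site d) :=
  {X | Tendsto (fun n => dot (X n) l) atTop atTop}

/-- The local drift of the transition vector `p` in direction `l`. -/
noncomputable def drift {d : ℕ} (p : Simplex d) (l : Fin d → ℝ) : ℝ :=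
  ∑ e : Step d, p e * dot (stepVec e) l

end Vale.Agent.Lib.P147
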