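import Vale.Agent.Lib.P147.Defs

namespace Vale.Agent.Lib.P147

open MeasureTheory ProbabilityTheory Filter

variable {d : ℕ}

theorem dot_add (x y : Site d) (l : Fin d → ℝ) : dot (x + y) l = dot x l + dot y l := by
  unfold dot
  rw [← Finset.sum_add_distrib]
  refine Finset.sum_congr rfl fun i _ => ?_
  simp only [Pi.add_apply]
  push_cast
  ring

theorem dot_neg (x : Site d) (l : Fin d → ℝ) : dot x (-l) = - dot x l := by
  unfold dot
  rw [← Finset.sum_neg_distrib]
  refine Finset.sum_congr rfl fun i _ => ?_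
  simp

/-- The constant bounding the increments of `X_n · l`. -/
noncomputable def bound (l : Fin d → ℝ) : ℝ := ∑ i, |l i|

theorem bound_nonneg (l : Fin d → ℝ) : 0 ≤ bound l :=
  Finset.sum_nonneg fun i _ => abs_nonneg _

theorem abs_dot_stepVec_le (e : Step d) (l : Fin d → ℝ) : |dot (stepVec e) l| ≤ bound l := by
  have h1 : dot (stepVec e) l = (if e.2 then 1 else -1 : ℝ) * l e.1 := by
    unfold dot stepVec
    rw [Finset.sum_eq_single e.1]
    · rcases e with ⟨i, b⟩
      cases b <;> simp
    · intro j _ hj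
      simp [hj]
    · intro h
      exact absurd (Finset.mem_univ _) h
  rw [h1]
  have h2 : |(if e.2 then 1 else -1 : ℝ) * l e.1| = |l e.1| := by
    rcases e with ⟨i, b⟩
    cases b <;> simp
  rw [h2]
  exact Finset.single_le_sum (f := fun i => |l i|) (fun i _ => abs_nonneg _) (Finset.mem_univ e.1)

theorem measurable_dot (l : Fin d → ℝ) : Measurable (fun x : Site d => dot x l) :=
  measurable_of_countable _

theorem integral_stepLaw (ω : Env d) (x : Site d) (l : Fin d → ℝ) :
    ∫ z, dot z l ∂(stepLaw ω x) = dot x l + drift (ω x) l := by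
  unfold stepLaw drift
  rw [integral_finsetSum_measure]
  · simp only [integral_smul_measure, integral_dirac, smul_eq_mul, dot_add]
    have h1 : ∀ e : Step d, (ENNReal.ofReal (ω x e)).toReal * (dot x l + dot (stepVec e) l)
        = (ω x e) * dot x l + (ω x e) * dot (stepVec e) l := by
      intro e
      rw [ENNReal.toReal_ofReal (stdSimplex.zero_le _ e)]
      ring
    simp only [h1]
    rw [Finset.sum_add_distrib, ← Finset.sum_mul, stdSimplex.sum_eq_one, one_mul]
  · intro e _
    refine Integrable.smul_measure ?_ ENNReal.ofReal_ne_top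
    exact integrable_dirac (by simp)

section quenchedLaw

variable (ω : Env d) (x : Site d)

instance isProbabilityMeasure_quenched : IsProbabilityMeasure (quenched ω x) := by
  unfold quenched
  infer_instance

theorem ae_start : ∀ᵐ X ∂(quenched ω x), X 0 = x := by
  have h := Kernel.traj_map_updateFinset (X := fun _ => Site d) (κ := walkKernel ω) (n := 0)
    (fun _ => x)
  rw [ae_iff]
  have hA : MeasurableSet {X : ℕ → Site d | ¬ X 0 = x} := by
    change MeasurableSet ((fun X : ℕ → Site d => X 0) ⁻¹' {x}ᶜ)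
    exact (measurableSet_singleton x).compl.preimage (measurable_pi_apply 0)
  unfold quenched
  rw [← h, Measure.map_apply (by fun_prop) hA]
  have hempty : (fun X : ℕ → Site d => Function.updateFinset X (Finset.Iic 0) fun _ => x) ⁻¹'
      {X : ℕ → Site d | ¬ X 0 = x} = ∅ := by
    ext X
    simp [Function.updateFinset]
  rw [hempty, measure_empty]

theorem ae_step : ∀ᵐ X ∂(quenched ω x), ∀ n, ∃ e : Step d, X (n + 1) = X n + stepVec e := by
  rw [ae_all_iff]
  intro n
  rw [ae_iff]
  let S : Set (((i : Finset.Iic n) → Site d) × Site d) :=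
    {p | ¬ ∃ e : Step d, p.2 = p.1 ⟨n, Finset.mem_Iic.2 le_rfl⟩ + stepVec e}
  have hS : MeasurableSet S := (Set.to_countable S).measurableSet
  have h := Kernel.partialTraj_compProd_eq_map_traj (X := fun _ => Site d) (κ := walkKernel ω)
    (Nat.zero_le n) (x₀ := fun _ => x)
  have h2 : {X : ℕ → Site d | ¬ ∃ e : Step d, X (n + 1) = X n + stepVec e}
      = (fun X : ℕ → Site d => (Preorder.frestrictLe n X, X (n + 1))) ⁻¹' S := by
    ext X
    rfl
  unfold quenched
  rw [h2, ← Measure.map_apply (by fun_prop) hS, ← h, Measure.compProd_apply hS]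
  have h3 : ∀ a : (i : Finset.Iic n) → Site d, (walkKernel ω n a) (Prod.mk a ⁻¹' S) = 0 := by
    intro a
    change stepLaw ω (a ⟨n, Finset.mem_Iic.2 le_rfl⟩) (Prod.mk a ⁻¹' S) = 0
    unfold stepLaw
    rw [Measure.coe_finsetSum, Finset.sum_apply]
    refine Finset.sum_eq_zero fun e _ => ?_
    rw [Measure.smul_apply, Measure.dirac_apply' _ (Set.to_countable _).measurableSet]
    have : a ⟨n, Finset.mem_Iic.2 le_rfl⟩ + stepVec e ∉ Prod.mk a ⁻¹' S := by
      intro hmem
      exact hmem ⟨e, rfl⟩
    simp [Set.indicator_of_notMem this]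
  simp [h3]

/-- The process `X_n · l`. -/
def proc (l : Fin d → ℝ) (n : ℕ) (X : ℕ → Site d) : ℝ := dot (X n) l

theorem ae_bdd_incr (l : Fin d → ℝ) :
    ∀ᵐ X ∂(quenched ω x), ∀ n, |proc l (n + 1) X - proc l n X| ≤ bound l := by
  filter_upwards [ae_step ω x] with X hX n
  obtain ⟨e, he⟩ := hX n
  simp only [proc, he, dot_add, add_sub_cancel_left]
  exact abs_dot_stepVec_le e l

theorem ae_abs_le (l : Fin d → ℝ) (n : ℕ) :
    ∀ᵐ X ∂(quenched ω x), |proc l n X| ≤ |dot x l| + n * bound l := by
  filter_upwards [ae_start ω x, ae_bdd_incr ω x l] with X h0 hX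
  induction n with
  | zero => simp [proc, h0]
  | succ n ih =>
    have h1 := hX n
    have h2 : |proc l (n + 1) X| ≤ |proc l n X| + |proc l (n + 1) X - proc l n X| := by
      have := abs_add_le (proc l n X) (proc l (n + 1) X - proc l n X)
      simpa using this
    push_cast
    linarith

theorem measurable_proc (l : Fin d → ℝ) (n : ℕ) : Measurable (proc l n) :=
  (measurable_dot l).comp (measurable_pi_apply n)

theorem integrable_proc (l : Fin d → ℝ) (n : ℕ) : Integrable (proc l n) (quenched ω x) := by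
  refine Integrable.mono' (integrable_const (|dot x l| + n * bound l))
    (measurable_proc l n).aestronglyMeasurable ?_
  filter_upwards [ae_abs_le ω x l n] with X hX
  rw [Real.norm_eq_abs]
  exact hX

theorem adapted_proc (l : Fin d → ℝ) :
    StronglyAdapted (Filtration.piLE (X := fun _ : ℕ => Site d)) (proc l) := by
  intro n
  have hg : Measurable (fun h : (i : Set.Iic n) → Site d =>
      dot (h ⟨n, Set.mem_Iic.2 le_rfl⟩) l) :=
    (measurable_dot l).comp (measurable_pi_apply _)
  have h1 : Measurable[Filtration.piLE (X := fun _ : ℕ => Site d) n] (proc l n) :=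
    hg.comp (comap_measurable _)
  exact h1.stronglyMeasurable

theorem submartingale_proc (l : Fin d → ℝ) (hdrift : ∀ y, 0 ≤ drift (ω y) l) :
    Submartingale (proc l) (Filtration.piLE (X := fun _ : ℕ => Site d)) (quenched ω x) := by
  refine submartingale_nat (adapted_proc l) (integrable_proc ω x l) ?_
  intro n
  have h1 : (quenched ω x)[proc l (n + 1) | Filtration.piLE (X := fun _ : ℕ => Site d) n]
      =ᵐ[quenched ω x] fun X => ∫ y, proc l (n + 1) y
        ∂(Kernel.traj (X := fun _ => Site d) (walkKernel ω) n (Preorder.frestrictLe n X)) :=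
    Kernel.condExp_traj (X := fun _ => Site d) (κ := walkKernel ω) (Nat.zero_le n)
      (x₀ := fun _ => x) (integrable_proc ω x l (n + 1))
  have h2 : ∀ X : ℕ → Site d,
      ∫ y, proc l (n + 1) y ∂(Kernel.traj (X := fun _ => Site d) (walkKernel ω) n
        (Preorder.frestrictLe n X)) = dot (X n) l + drift (ω (X n)) l := by
    intro X
    have h3 := Kernel.map_traj_succ_self (X := fun _ => Site d) (κ := walkKernel ω) (a := n)
    have h4 : ∫ y, proc l (n + 1) y ∂(Kernel.traj (X := fun _ => Site d) (walkKernel ω) n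
          (Preorder.frestrictLe n X))
        = ∫ z, dot z l ∂(((Kernel.traj (X := fun _ => Site d) (walkKernel ω) n).map
          (fun y => y (n + 1))) (Preorder.frestrictLe n X)) := by
      rw [Kernel.map_apply _ (measurable_pi_apply _)]
      exact (integral_map (φ := fun y : ℕ → Site d => y (n + 1))
        (measurable_pi_apply (n + 1)).aemeasurable
        (measurable_dot l).aestronglyMeasurable).symm
    rw [h4, h3]
    exact integral_stepLaw ω (X n) l
  filter_upwards [h1] with X hX
  change proc l n X ≤ _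
  rw [hX, h2]
  have := hdrift (X n)
  simp only [proc]
  linarith

theorem quenched_escape_neg (l : Fin d → ℝ) (hdrift : ∀ y, 0 ≤ drift (ω y) l) :
    quenched ω x (escape (-l)) = 0 := by
  have hsub := submartingale_proc ω x l hdrift
  have hR : ∀ᵐ X ∂(quenched ω x), ∀ n,
      |proc l (n + 1) X - proc l n X| ≤ ((⟨bound l, bound_nonneg l⟩ : NNReal) : ℝ) :=
    ae_bdd_incr ω x l
  have h := hsub.bddAbove_iff_exists_tendsto hR
  rw [measure_eq_zero_iff_ae_notMem]
  filter_upwards [h] with X hX hesc
  have h1 : Tendsto (fun n => proc l n X) atTop atBot := by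
    have h2 : (fun n => proc l n X) = fun n => - dot (X n) (-l) := by
      ext n
      simp [proc, dot_neg]
    rw [h2]
    exact tendsto_neg_atTop_atBot.comp hesc
  obtain ⟨c, hc⟩ := hX.1 (bddAbove_range_of_tendsto_atTop_atBot h1)
  exact not_tendsto_nhds_of_tendsto_atBot h1 c hc

end quenchedLaw

theorem ae_env (μ : Measure (Simplex d)) [IsProbabilityMeasure μ] (l : Fin d → ℝ)
    (h : ∀ᵐ p ∂μ, 0 ≤ drift p l) : ∀ᵐ ω ∂(envLaw μ), ∀ y, 0 ≤ drift (ω y) l := by
  rw [ae_all_iff]
  intro y
  exact (measurePreserving_eval_infinitePi (fun _ : Site d => μ) y).quasiMeasurePreserving.ae h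

theorem marginal_nestling (μ : Measure (Simplex d)) [IsProbabilityMeasure μ] (l : Fin d → ℝ)
    (h : ∀ᵐ p ∂μ, 0 ≤ drift p l) :
    (∀ᵐ ω ∂(envLaw μ), ∀ x, quenched ω x (escape (-l)) = 0) ∧
      annealed μ 0 (escape (-l)) = 0 := by
  have h1 : ∀ᵐ ω ∂(envLaw μ), ∀ x, quenched ω x (escape (-l)) = 0 := by
    filter_upwards [ae_env μ l h] with ω hω x
    exact quenched_escape_neg ω x l hω
  refine ⟨h1, ?_⟩
  unfold annealed
  have h2 : ∫⁻ ω, quenched ω 0 (escape (-l)) ∂(envLaw μ) = ∫⁻ _ω, 0 ∂(envLaw μ) :=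
    lintegral_congr_ae (by filter_upwards [h1] with ω hω; exact hω 0)
  rw [h2, lintegral_zero]

theorem drift_neg (p : Simplex d) (l : Fin d → ℝ) : drift p (-l) = - drift p l := by
  unfold drift
  rw [← Finset.sum_neg_distrib]
  refine Finset.sum_congr rfl fun e _ => ?_
  rw [dot_neg]
  ring

theorem no_escape_of_drift_nonpos (μ : Measure (Simplex d)) [IsProbabilityMeasure μ]
    (l : Fin d → ℝ) (h : ∀ᵐ p ∂μ, drift p l ≤ 0) :
    (∀ᵐ ω ∂(envLaw μ), ∀ x, quenched ω x (escape l) = 0) ∧ annealed μ 0 (escape l) = 0 := by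
  have h' : ∀ᵐ p ∂μ, 0 ≤ drift p (-l) := by
    filter_upwards [h] with p hp
    rw [drift_neg]
    linarith
  have h2 := marginal_nestling μ (-l) h'
  rwa [neg_neg] at h2

end Vale.Agent.Lib.P147
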